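import Vale.Agent.P203.Fold.Key
import Vale.Agent.P203.Fold.Z955
import Vale.Agent.P203.KK.Stmt
import Vale.Agent.P203.Morse.Good
import Vale.Agent.P203.Glue.Key
import Vale.Agent.P203.Glue.Theory
import Vale.Agent.P203.Mod.Bridge
import Vale.Agent.P203.Mod.UnfW
import Vale.Agent.P203.Dg.Unf

/-!
# P203, assembly: from the twist functors to `Good` of the set of all cells
-/

namespace Vale.Agent.P203.Asm

open Vale.Agent.P203 Vale.Agent.P203.Mod Vale.Agent.P203.Unf Vale.Agent.P203.Sph

variable {S : Type}

theorem framed (M : CoxeterMatrix S) : Fold.Framed (unfF M) (Sum.inl : S → S ⊕ S) := by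
  intro r
  refine ⟨.inl (r, fun e => 0), rfl, .inr (r, fun e => 0), 0, ?_, ?_⟩
  · rw [unfF_adj]
    simp [nadjF]
  · intro t ht
    rw [unfF_π_inr] at ht
    exact Sum.inr_ne_inl ht

variable [Fintype S] [DecidableEq S]

/-- Main theorem of the whole development, for an abstract theory of good lower sets of cells. -/
theorem good_of_alg (M : CoxeterMatrix S) (hA : Fold.AlgMain (ZMod 2) M (unfF M) Sum.inl)
    {Good : Set (ACell M) → Prop} {Rel : Set (ACell M) → Set (ACell M) → Prop}
    (h : Glue.PosetTheory Good Rel) : Good Set.univ := by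
  refine Glue.good_univ h ?_
  refine Morse.main (Glue.theoryOf h) (fun a U hU => Glue.W_Q_of_spherical h
    (fun U _ => lcmProp_of_algMain hA (unfWeights M) (unfF_ne (M := M)) U) a hU) ?_ 1 Finset.univ
  intro a
  obtain ⟨K, hK⟩ := KK.exists_base (unfWeights M) (framed M) hA a
  exact ⟨Glue.keyOf K, Glue.nice_of (FoldL1.conn K) (FoldZ.zstmt K), Glue.framed_of hK⟩

/-- The same, from the three facts on the twist functors. -/
theorem good_of_facts (M : CoxeterMatrix S) (F : Dg.TwistFacts (ZMod 2) (unfF M))
    {Good : Set (ACell M) → Prop} {Rel : Set (ACell M) → Set (ACell M) → Prop}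
    (h : Glue.PosetTheory Good Rel) : Good Set.univ :=
  good_of_alg M (Dg.algMain F (Dg.unfEmb M)) h

end Vale.Agent.P203.Asm
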