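import Vale.Agent.P203.Top.CellCover
import Vale.Agent.P203.Top.Quot
import Vale.Agent.P203.Glue.OfTop
import Vale.Agent.P203.Glue.Key
import Vale.Agent.P203.Morse.Good
import Vale.Agent.P203.Fold.Key
import Vale.Agent.P203.Fold.Z955
import Vale.Agent.P203.Fold.Conn
import Vale.Agent.P203.Mod.Bridge
import Vale.Agent.P203.Mod.UnfW

/-! P203: final assembly. `all_good`: every good theory on the cells of the Artin group contains the
set of all cells; `final`: all higher homotopy groups of `Y/W` vanish.  The two hypotheses `hA`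
(existence of the derived twists) and `hK` (antipodal case) are discharged in blocks Dg and KK. -/

set_option linter.all false

namespace Vale.Agent.P203.Asm

open Vale.Agent.P203

section
variable {S : Type} [Fintype S] [DecidableEq S] (M : CoxeterMatrix S)

theorem framed_unfF : Fold.Framed (Unf.unfF M) (Sum.inl : S → S ⊕ S) := by
  intro s
  refine ⟨.inl (s, fun _ => 0), rfl, .inr (s, fun _ => 0), 0, ?_, ?_⟩
  · rw [Unf.unfF_adj]
    simp [Unf.nadjF]
  · intro t h
    rw [Unf.unfF_π_inr] at h
    exact absurd h Sum.inr_ne_inl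

/-- every good theory on the cells of the Artin group contains the set of all cells -/
theorem all_good
    (hA : Fold.AlgMain (ZMod 2) M (Unf.unfF M) (Sum.inl : S → S ⊕ S))
    (hK : ∀ H : ArtinGroup M → ℤ → Mod.PMod (ZMod 2) (Unf.unfF M),
      Fold.IsHSys M (Unf.unfF M) Sum.inl H → Fold.KKStmt (Fold.keyData (Mod.unfWeights M) H))
    {Good : Set (Sph.ACell M) → Prop} {Rel : Set (Sph.ACell M) → Set (Sph.ACell M) → Prop}
    (h : Glue.PosetTheory Good Rel) : Good Set.univ := by
  refine Glue.good_univ h ?_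
  refine Morse.main (Glue.theoryOf h) ?_ ?_ _ _
  · intro a U hU
    exact Glue.W_Q_of_spherical h
      (fun U _ => Mod.lcmProp_of_algMain hA (Mod.unfWeights M) (Mod.unfF_ne M) U) a hU
  · intro a
    obtain ⟨K, hKb⟩ := Fold.exists_base (Mod.unfWeights M) (framed_unfF M) hA hK a
    exact ⟨Glue.keyOf K, Glue.nice_of (FoldL1.conn K) (FoldZ.zstmt K), Glue.framed_of hKb⟩

end

theorem final {S : Type} [Finite S] (M : CoxeterMatrix S)
    (hA : ∀ [Fintype S] [DecidableEq S],
      Fold.AlgMain (ZMod 2) M (Unf.unfF M) (Sum.inl : S → S ⊕ S))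
    (hK : ∀ [Fintype S] [DecidableEq S], ∀ H : ArtinGroup M → ℤ → Mod.PMod (ZMod 2) (Unf.unfF M),
      Fold.IsHSys M (Unf.unfF M) Sum.inl H → Fold.KKStmt (Fold.keyData (Mod.unfWeights M) H))
    (n : ℕ) (hn : 2 ≤ n) (x : OrbitSpace M) :
    Subsingleton (HomotopyGroup (Fin n) (OrbitSpace M) x) := by
  classical
  have := Fintype.ofFinite S
  exact Top.subsingleton_orbitSpace M Tits.exists_nhds_disjoint hn
    (Top.subsingleton_homotopyGroup_complementSet M
      (all_good M hA hK (Glue.posetTheory_of_top (Top.goodTheory_top M))) hn) x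

end Vale.Agent.P203.Asm
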